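import Vale.Agent.P250.Full.Spec

/-!
Second order jets at the origin, and the uniform jet bound for a model cell.
-/

namespace Vale.Agent.P250.Full.Geometry

open Complex Filter Set
open scoped ComplexConjugate Topology ContDiff

/-- The jet of order two of `f` at the origin is bounded by `C`. -/
def Jet (f : (Fin 2 → ℂ) → ℂ) (C : ℝ) : Prop :=
  ContDiffAt ℝ 2 f 0 ∧ ∀ k ≤ 2, ‖iteratedFDeriv ℝ k f 0‖ ≤ C

theorem Jet.congr {f g : (Fin 2 → ℂ) → ℂ} {C : ℝ} (h : Jet f C) (hfg : f =ᶠ[𝓝 0] g) : Jet g C :=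
  ⟨h.1.congr_of_eventuallyEq hfg.symm, fun k hk => by
    rw [← (hfg.iteratedFDeriv (𝕜 := ℝ) k).eq_of_nhds]; exact h.2 k hk⟩

theorem Jet.mono {f : (Fin 2 → ℂ) → ℂ} {C C' : ℝ} (h : Jet f C) (hC : C ≤ C') : Jet f C' :=
  ⟨h.1, fun k hk => (h.2 k hk).trans hC⟩

theorem jet_zero : Jet (fun _ => 0) 0 :=
  ⟨contDiffAt_const, fun k _ => by simp⟩

theorem Jet.add {f g : (Fin 2 → ℂ) → ℂ} {C D : ℝ} (hf : Jet f C) (hg : Jet g D) :
    Jet (fun z => f z + g z) (C + D) := by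
  refine ⟨hf.1.add hg.1, fun k hk => ?_⟩
  have hk' : ((k : ℕ) : WithTop ℕ∞) ≤ 2 := by exact_mod_cast hk
  rw [fun_iteratedFDeriv_add_apply (hf.1.of_le hk') (hg.1.of_le hk')]
  exact (norm_add_le _ _).trans (add_le_add (hf.2 k hk) (hg.2 k hk))

theorem Jet.const_mul {f : (Fin 2 → ℂ) → ℂ} {C : ℝ} (hf : Jet f C) (c : ℝ) :
    Jet (fun z => (c : ℂ) * f z) (|c| * C) := by
  refine ⟨contDiffAt_const.mul hf.1, fun k hk => ?_⟩
  have hk' : ((k : ℕ) : WithTop ℕ∞) ≤ 2 := by exact_mod_cast hk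
  simp only [← Complex.real_smul]
  rw [iteratedFDeriv_const_smul_apply' (hf.1.of_le hk'), norm_smul, Real.norm_eq_abs]
  exact mul_le_mul_of_nonneg_left (hf.2 k hk) (abs_nonneg c)

theorem jet_sum {ι : Type*} (s : Finset ι) {f : ι → (Fin 2 → ℂ) → ℂ} {C : ι → ℝ}
    (h : ∀ i ∈ s, Jet (f i) (C i)) : Jet (fun z => ∑ i ∈ s, f i z) (∑ i ∈ s, C i) := by
  classical
  induction s using Finset.induction_on with
  | empty => simpa using jet_zero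
  | insert i s hi ih =>
    rw [Finset.forall_mem_insert] at h
    simp only [Finset.sum_insert hi]
    exact h.1.add (ih h.2)

/-- `(x prof')'`. -/
noncomputable def K (ρ x : ℝ) : ℝ := deriv (prof ρ) x + x * deriv (deriv (prof ρ)) x

theorem contDiff_K (hF : ProfStmt) {ρ : ℝ} (h1 : 0 < ρ) (h2 : ρ ≤ 1 / 10) :
    ContDiff ℝ 2 (K ρ) := by
  have hp := (hF ρ h1 h2).1
  have d1 : ContDiff ℝ ∞ (deriv (prof ρ)) := (contDiff_infty_iff_deriv.1 hp).2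
  have d2 : ContDiff ℝ ∞ (deriv (deriv (prof ρ))) := (contDiff_infty_iff_deriv.1 d1).2
  exact (d1.add (contDiff_id.mul d2)).of_le (WithTop.coe_le_coe.2 le_top)

theorem K_eq_zero (hF : ProfStmt) {ρ x : ℝ} (h1 : 0 < ρ) (h2 : ρ ≤ 1 / 10)
    (hx : 3 * ρ ^ 2 / 4 < x) : K ρ x = 0 := by
  have hx0 : 0 < x := lt_trans (by positivity) hx
  have e : prof ρ =ᶠ[𝓝 x] Real.log :=
    (eventually_gt_nhds hx).mono fun y hy => (hF ρ h1 h2).2.1 y hy.le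
  have e1 : deriv (prof ρ) =ᶠ[𝓝 x] fun y => y⁻¹ := by
    filter_upwards [e.eventuallyEq_nhds] with y hy
    rw [hy.deriv_eq, Real.deriv_log]
  rw [K, e1.eq_of_nhds, e1.deriv_eq, deriv_inv]
  field_simp
  ring

/-- The linear form with coefficients `m`. -/
noncomputable def lin (m z : (Fin 2 → ℂ)) : ℂ := m 0 * z 0 + m 1 * z 1

/-- A cell in the coordinates of an automorphism, with parameters `(h₀, ε, m, l)`. -/
noncomputable def hh (p : ℂ × ℂ × (Fin 2 → ℂ) × (Fin 2 → ℂ)) (z : (Fin 2 → ℂ)) : ℂ :=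
  p.1 + p.2.1 * (lin p.2.2.1 z / (1 + lin p.2.2.2 z))

/-- The normalised derivative of `hh`. -/
noncomputable def gg (p : ℂ × ℂ × (Fin 2 → ℂ) × (Fin 2 → ℂ)) (i : Fin 2) (z : (Fin 2 → ℂ)) : ℂ :=
  (p.2.2.1 i * (1 + lin p.2.2.2 z) - lin p.2.2.1 z * p.2.2.2 i) / (1 + lin p.2.2.2 z) ^ 2

/-- The normalised Levi form of a cell. -/
noncomputable def model (ρ : ℝ) (i j : Fin 2) (p : ℂ × ℂ × (Fin 2 → ℂ) × (Fin 2 → ℂ)) (z : (Fin 2 → ℂ)) : ℂ :=
  (K ρ (normSq (hh p z)) : ℂ) * gg p i z * conj (gg p j z)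

theorem lin_zero (m : (Fin 2 → ℂ)) : lin m 0 = 0 := by simp [lin]

theorem hasFDerivAt_hh (p : ℂ × ℂ × (Fin 2 → ℂ) × (Fin 2 → ℂ)) {z : (Fin 2 → ℂ)} (hz : 1 + lin p.2.2.2 z ≠ 0) (i : Fin 2) :
    DifferentiableAt ℂ (hh p) z ∧ fderiv ℂ (hh p) z (Pi.single i 1) = p.2.1 * gg p i z := by
  have hl : ∀ m : (Fin 2 → ℂ), HasFDerivAt (lin m)
      (m 0 • ContinuousLinearMap.proj (R := ℂ) (φ := fun _ : Fin 2 => ℂ) 0
        + m 1 • ContinuousLinearMap.proj (R := ℂ) (φ := fun _ : Fin 2 => ℂ) 1) z := fun m =>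
    ((hasFDerivAt_apply (𝕜 := ℂ) 0 z).const_mul (m 0)).add
      ((hasFDerivAt_apply (𝕜 := ℂ) 1 z).const_mul (m 1))
  have hd := (((hl p.2.2.1).mul ((hasDerivAt_inv hz).comp_hasFDerivAt z
    ((hl p.2.2.2).const_add 1))).const_mul p.2.1).const_add p.1
  have hd' : HasFDerivAt (hh p) _ z := hd
  refine ⟨hd'.differentiableAt, ?_⟩
  rw [hd'.fderiv]
  simp only [gg, smul_apply, add_apply,
    ContinuousLinearMap.proj_apply, smul_eq_mul, Pi.single_apply]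
  fin_cases i <;> simp [Function.comp] <;> left <;> field_simp <;> ring

theorem exists_model_bound (hF : ProfStmt) {ρ : ℝ} (h1 : 0 < ρ) (h2 : ρ ≤ 1 / 10) :
    ∃ C : ℝ, 0 ≤ C ∧ ∀ p : ℂ × ℂ × (Fin 2 → ℂ) × (Fin 2 → ℂ), ‖p‖ ≤ 20 → ∀ i j, Jet (model ρ i j p) C := by
  let O : Set ((ℂ × ℂ × (Fin 2 → ℂ) × (Fin 2 → ℂ)) × (Fin 2 → ℂ)) := {x | 1 + lin x.1.2.2.2 x.2 ≠ 0}
  have hO : IsOpen O := isOpen_ne_fun (by unfold lin; fun_prop) continuous_const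
  let F : Fin 2 → Fin 2 → ((ℂ × ℂ × (Fin 2 → ℂ) × (Fin 2 → ℂ)) × (Fin 2 → ℂ)) → ℂ := fun i j x => model ρ i j x.1 x.2
  have h0 : ∀ p, (p, (0 : (Fin 2 → ℂ))) ∈ O := fun p => by simp [O, lin_zero]
  have hFs : ∀ i j, ContDiffOn ℝ 2 (F i j) O := by
    intro i j x hx
    refine ContDiffAt.contDiffWithinAt ?_
    have hne : (1 + lin x.1.2.2.2 x.2) ^ 2 ≠ 0 := pow_ne_zero 2 hx
    have hl : ∀ k : ((ℂ × ℂ × (Fin 2 → ℂ) × (Fin 2 → ℂ)) × (Fin 2 → ℂ)) → (Fin 2 → ℂ), ContDiffAt ℝ 2 k x →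
        ContDiffAt ℝ 2 (fun y => lin (k y) y.2) x := by
      intro k hk
      unfold lin
      fun_prop
    have hm := hl (fun y => y.1.2.2.1) (by fun_prop)
    have hd := contDiffAt_const (c := (1 : ℂ)).add (hl (fun y => y.1.2.2.2) (by fun_prop))
    have hh1 : ContDiffAt ℝ 2 (fun y : (ℂ × ℂ × (Fin 2 → ℂ) × (Fin 2 → ℂ)) × (Fin 2 → ℂ) => hh y.1 y.2) x := by
      have hi := hd.inv hx
      unfold hh
      simp only [div_eq_mul_inv]
      exact (contDiffAt_fst.comp x contDiffAt_fst).add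
        (((contDiffAt_fst.comp x (contDiffAt_snd.comp x contDiffAt_fst))).mul (hm.mul hi))
    have hg : ∀ k, ContDiffAt ℝ 2 (fun y : (ℂ × ℂ × (Fin 2 → ℂ) × (Fin 2 → ℂ)) × (Fin 2 → ℂ) => gg y.1 k y.2) x := by
      intro k
      have hi := (hd.pow 2).inv hne
      have h1 : ContDiffAt ℝ 2 (fun y : (ℂ × ℂ × (Fin 2 → ℂ) × (Fin 2 → ℂ)) × (Fin 2 → ℂ) => y.1.2.2.1 k) x := by fun_prop
      have h2 : ContDiffAt ℝ 2 (fun y : (ℂ × ℂ × (Fin 2 → ℂ) × (Fin 2 → ℂ)) × (Fin 2 → ℂ) => y.1.2.2.2 k) x := by fun_prop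
      unfold gg
      simp only [div_eq_mul_inv]
      exact ((h1.mul hd).sub (hm.mul h2)).mul hi
    have hn : ContDiff ℝ 2 fun z : ℂ => normSq z := by
      simp only [normSq_eq_norm_sq]; exact contDiff_norm_sq ℝ
    exact ((ofRealCLM.contDiff.contDiffAt.comp x ((contDiff_K hF h1 h2).contDiffAt.comp x
      (hn.contDiffAt.comp x hh1))).mul (hg i)).mul (conjCLE.contDiff.contDiffAt.comp x (hg j))
  have hb : ∀ i j, ∀ k : Fin 3, ∃ C, ∀ p ∈ Metric.closedBall (0 : ℂ × ℂ × (Fin 2 → ℂ) × (Fin 2 → ℂ)) 20,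
      ‖iteratedFDeriv ℝ (k : ℕ) (F i j) (p, 0)‖ ≤ C := by
    intro i j k
    have hk : ((k : ℕ) : WithTop ℕ∞) ≤ 2 := by exact_mod_cast Nat.lt_succ_iff.1 k.2
    have hc : Continuous fun p : ℂ × ℂ × (Fin 2 → ℂ) × (Fin 2 → ℂ) => iteratedFDeriv ℝ (k : ℕ) (F i j) (p, 0) :=
      continuous_iff_continuousAt.2 fun p =>
        (((hFs i j).contDiffAt (hO.mem_nhds (h0 p))).continuousAt_iteratedFDeriv hk).comp
          (f := fun q : ℂ × ℂ × (Fin 2 → ℂ) × (Fin 2 → ℂ) => (q, (0 : (Fin 2 → ℂ)))) (by fun_prop)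
    exact (isCompact_closedBall _ _).exists_bound_of_continuousOn hc.continuousOn
  choose C hC using hb
  refine ⟨∑ i, ∑ j, ∑ k, |C i j k|, by positivity, fun p hp i j => ⟨?_, fun k hk => ?_⟩⟩
  · exact ((hFs i j).contDiffAt (hO.mem_nhds (h0 p))).comp (0 : (Fin 2 → ℂ)) (contDiffAt_const.prodMk contDiffAt_id)
  let G : ((ℂ × ℂ × (Fin 2 → ℂ) × (Fin 2 → ℂ)) × (Fin 2 → ℂ)) → ℂ := fun y => F i j ((p, 0) + y)
  let J : (Fin 2 → ℂ) →L[ℝ] (ℂ × ℂ × (Fin 2 → ℂ) × (Fin 2 → ℂ)) × (Fin 2 → ℂ) := ContinuousLinearMap.inr ℝ _ (Fin 2 → ℂ)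
  let O' : Set ((ℂ × ℂ × (Fin 2 → ℂ) × (Fin 2 → ℂ)) × (Fin 2 → ℂ)) := (fun y => (p, (0 : (Fin 2 → ℂ))) + y) ⁻¹' O
  have hO' : IsOpen O' := hO.preimage (by fun_prop)
  have hG : ContDiffOn ℝ 2 G O' := (hFs i j).comp (by fun_prop) (fun y hy => hy)
  have h0' : J 0 ∈ O' := by simpa [O', J] using h0 p
  have hk' : ((k : ℕ) : WithTop ℕ∞) ≤ 2 := by exact_mod_cast hk
  have key := J.iteratedFDerivWithin_comp_right hG hO'.uniqueDiffOn
    (hO'.preimage J.continuous).uniqueDiffOn h0' hk'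
  rw [iteratedFDerivWithin_of_isOpen k (hO'.preimage J.continuous) h0',
    iteratedFDerivWithin_of_isOpen k hO' h0',
    show G ∘ J = model ρ i j p by funext z; simp [G, J, F],
    show J 0 = 0 from map_zero J, iteratedFDeriv_comp_add_left, add_zero] at key
  rw [key]
  refine ((iteratedFDeriv ℝ k (F i j) (p, 0)).norm_compContinuousLinearMap_le _).trans ?_
  have hJ : ‖J‖ ≤ 1 := ContinuousLinearMap.opNorm_le_bound _ zero_le_one fun y => by simp [J]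
  refine (mul_le_of_le_one_right (norm_nonneg _) ?_).trans ?_
  · exact Finset.prod_le_one (fun _ _ => norm_nonneg J) fun _ _ => hJ
  refine ((hC i j ⟨k, Nat.lt_succ_of_le hk⟩ p (by simpa using hp)).trans (le_abs_self _)).trans ?_
  refine le_trans ?_ (Finset.single_le_sum (fun i _ => by positivity) (Finset.mem_univ i))
  refine le_trans ?_ (Finset.single_le_sum (fun j _ => by positivity) (Finset.mem_univ j))
  exact Finset.single_le_sum (f := fun k => |C i j k|) (fun k _ => abs_nonneg _) (Finset.mem_univ _)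

end Vale.Agent.P250.Full.Geometry
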