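import Vale.Agent.P250.Full.Geometry.Chain
import Vale.Agent.P250.Full.Geometry.Jet
import Vale.Agent.P250.Full.Nets

/-!
A cell in the coordinates of an automorphism.
-/

namespace Vale.Agent.P250.Full.Geometry

open Complex Filter
open scoped ComplexConjugate Topology ContDiff

variable {t ρ : ℝ} {a e z : Fin 2 → ℂ}

theorem av_facts (ht : 0 < t) (ht1 : t ≤ 1 / 1000) :
    0 < av t ∧ av t < 1 ∧ t ≤ 1 - av t ∧ 1 - av t ≤ 2 * t ∧ 1 - av t ^ 2 ≤ 4 * t := by
  have h1 : (0 : ℝ) < 1 + t := by linarith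
  have h : av t * (1 + t) = 1 - t := by rw [av, div_mul_cancel₀]; positivity
  have h0 : 0 < av t := div_pos (by linarith) h1
  have h2 : av t < 1 := by nlinarith
  refine ⟨h0, h2, by nlinarith, by nlinarith, ?_⟩
  nlinarith [show 1 - av t ≤ 2 * t by nlinarith]

theorem norm_ip_lt (ha : a ∈ ball2) (he : e ∈ sph) : ‖ip a e‖ < 1 := by
  have h := normSq_ip_le a e
  have he' : nsq e = 1 := he
  have ha' : nsq a < 1 := ha
  rw [he', mul_one, normSq_eq_norm_sq] at h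
  nlinarith [norm_nonneg (ip a e)]

theorem one_sub_mul_ne (ht : 0 < t) (ht1 : t ≤ 1 / 1000) {s : ℂ} (hs : ‖s‖ < 1) :
    1 - (av t : ℂ) * s ≠ 0 := by
  intro h
  obtain ⟨h0, h1, -⟩ := av_facts ht ht1
  have := congrArg norm (sub_eq_zero.1 h)
  rw [norm_one, norm_mul, norm_real, Real.norm_eq_abs, abs_of_pos h0] at this
  nlinarith [norm_nonneg s]

theorem differentiableOn_bc_ip (ht : 0 < t) (ht1 : t ≤ 1 / 1000) (he : e ∈ sph) :
    DifferentiableOn ℂ (fun z => bc t (ip z e)) ball2 := by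
  intro z hz
  refine DifferentiableAt.differentiableWithinAt ?_
  unfold bc
  have hip : DifferentiableAt ℂ (fun z => ip z e) z := by unfold ip; fun_prop
  exact ((differentiableAt_const _).sub hip).mul
    (((differentiableAt_const _).sub (hip.const_mul _)).inv
      (one_sub_mul_ne ht ht1 (norm_ip_lt hz he)))

theorem contDiffAt_gam (hF : ProfStmt) (h1 : 0 < ρ) (h2 : ρ ≤ 1 / 10) (ht : 0 < t)
    (ht1 : t ≤ 1 / 1000) (he : e ∈ sph) (hz : z ∈ ball2) :
    ContDiffAt ℝ 2 (gam ρ t e) z := by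
  have hip : ContDiffAt ℝ 2 (fun z => ip z e) z := by unfold ip; fun_prop
  have hb : ContDiffAt ℝ 2 (fun z => bc t (ip z e)) z :=
    (contDiffAt_const.sub hip).mul
      ((contDiffAt_const.sub (contDiffAt_const.mul hip)).inv
        (one_sub_mul_ne ht ht1 (norm_ip_lt hz he)))
  exact (((hF ρ h1 h2).1.of_le (WithTop.coe_le_coe.2 le_top)).contDiffAt).comp z
    (contDiff_normSq.contDiffAt.comp z hb)

/-- The cell as a function of the new coordinate. -/
noncomputable def hfun (t : ℝ) (a e z : Fin 2 → ℂ) : ℂ := bc t (ip (aut a z) e)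

theorem differentiableOn_hfun (ht : 0 < t) (ht1 : t ≤ 1 / 1000) (ha : a ∈ ball2) (he : e ∈ sph) :
    DifferentiableOn ℂ (hfun t a e) ball2 :=
  (differentiableOn_bc_ip ht ht1 he).comp (differentiableOn_aut ha) fun _ hz => aut_mem ha hz

theorem lev_gam_aut (hF : ProfStmt) (h1 : 0 < ρ) (h2 : ρ ≤ 1 / 10) (ht : 0 < t)
    (ht1 : t ≤ 1 / 1000) (ha : a ∈ ball2) (he : e ∈ sph) (hz : z ∈ ball2) (i j : Fin 2) :
    lev (fun q => gam ρ t e (aut a q)) i j z = (K ρ (normSq (hfun t a e z)) : ℂ)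
      * fderiv ℂ (hfun t a e) z (Pi.single i 1) * conj (fderiv ℂ (hfun t a e) z (Pi.single j 1)) := by
  have hp : ContDiff ℝ ∞ (prof ρ) := (hF ρ h1 h2).1
  have hd1 : ContDiff ℝ ∞ (deriv (prof ρ)) := (contDiff_infty_iff_deriv.1 hp).2
  exact Calc.lev_radial isOpen_ball2 (differentiableOn_hfun ht ht1 ha he) hz
    (Eventually.of_forall fun x => (hp.differentiable (by simp) x).hasDerivAt)
    (hd1.differentiable (by simp) _).hasDerivAt i j

/-- An active cell sits within `O(t)` of the boundary point it marks. -/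
theorem relevant_facts (h1 : 0 < ρ) (h2 : ρ ≤ 1 / 10) (ht : 0 < t) (ht1 : t ≤ 1 / 1000)
    (ha : a ∈ ball2) (he : e ∈ sph) (hrel : normSq (bc t (ip a e)) ≤ 3 * ρ ^ 2 / 4) :
    ‖bc t (ip a e)‖ ≤ ρ ∧ t ≤ ‖1 - (av t : ℂ) * ip a e‖ ∧
      1 - normSq (ip a e) ≤ 49 / 10 * t ∧ ‖1 - ip a e‖ ≤ 3 * t ∧ normSq (ip a e) ≤ nsq a := by
  obtain ⟨v0, v1, v2, v3, v4⟩ := av_facts ht ht1
  have he' : nsq e = 1 := he
  have hs1 : ‖ip a e‖ < 1 := norm_ip_lt ha he
  have hcs : normSq (ip a e) ≤ nsq a := by simpa [he'] using normSq_ip_le a e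
  generalize ip a e = s0 at *
  have hd0n : 1 - (av t : ℂ) * s0 ≠ 0 := one_sub_mul_ne ht ht1 hs1
  have hd0lo : t ≤ ‖1 - (av t : ℂ) * s0‖ := by
    have := norm_sub_norm_le (1 : ℂ) ((av t : ℂ) * s0)
    rw [norm_one, norm_mul, norm_real, Real.norm_eq_abs, abs_of_pos v0] at this
    nlinarith [norm_nonneg s0]
  have hb : ‖bc t s0‖ ≤ ρ := by
    rw [normSq_eq_norm_sq] at hrel
    nlinarith [norm_nonneg (bc t s0)]
  have hnum : ‖(av t : ℂ) - s0‖ ≤ ρ * ‖1 - (av t : ℂ) * s0‖ := by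
    rw [bc, norm_div, div_le_iff₀ (norm_pos_iff.2 hd0n)] at hb
    exact hb
  have hd0hi : ‖1 - (av t : ℂ) * s0‖ ≤ 4 * t + ρ * ‖1 - (av t : ℂ) * s0‖ := by
    calc ‖1 - (av t : ℂ) * s0‖
        = ‖((1 - av t ^ 2 : ℝ) : ℂ) + (av t : ℂ) * ((av t : ℂ) - s0)‖ := by
          congr 1; push_cast; ring
      _ ≤ ‖((1 - av t ^ 2 : ℝ) : ℂ)‖ + ‖(av t : ℂ) * ((av t : ℂ) - s0)‖ := norm_add_le _ _
      _ ≤ _ := by
          rw [norm_mul, norm_real, norm_real, Real.norm_eq_abs, Real.norm_eq_abs, abs_of_pos v0,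
            abs_of_nonneg (by nlinarith)]
          nlinarith [norm_nonneg ((av t : ℂ) - s0)]
  have hd : ‖1 - (av t : ℂ) * s0‖ ≤ 9 / 2 * t := by
    nlinarith [norm_nonneg (1 - (av t : ℂ) * s0)]
  have h1s : ‖1 - s0‖ ≤ 49 / 20 * t := by
    calc ‖1 - s0‖ = ‖((1 - av t : ℝ) : ℂ) + ((av t : ℂ) - s0)‖ := by
          congr 1; push_cast; ring
      _ ≤ ‖((1 - av t : ℝ) : ℂ)‖ + ‖(av t : ℂ) - s0‖ := norm_add_le _ _
      _ ≤ _ := by
          rw [norm_real, Real.norm_eq_abs, abs_of_nonneg (by linarith)]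
          nlinarith [norm_nonneg (1 - (av t : ℂ) * s0)]
  have hs0lo : 1 - 49 / 20 * t ≤ ‖s0‖ := by
    have := norm_sub_norm_le (1 : ℂ) s0
    rw [norm_one] at this
    linarith
  refine ⟨hb, hd0lo, ?_, by linarith, hcs⟩
  rw [normSq_eq_norm_sq]
  nlinarith [norm_nonneg s0]

/-- The coefficients of `ip (aut a z) e - ip a e`, up to the factor `-1 / (1 - ip z a)`. -/
noncomputable def coef (a e : Fin 2 → ℂ) (i : Fin 2) : ℂ :=
  ((1 - nsq a : ℝ) : ℂ) * (conj (a i) * (ip a e / (nsq a : ℂ)))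
    + (Real.sqrt (1 - nsq a) : ℂ) * (conj (e i) - conj (a i) * (ip a e / (nsq a : ℂ)))

theorem norm_coef_le (ha : a ∈ ball2) (he : e ∈ sph) (hA : 0 < nsq a)
    (hδ : 1 - normSq (ip a e) ≤ 49 / 10 * t) (hcs : normSq (ip a e) ≤ nsq a) (i : Fin 2) :
    ‖coef a e i‖ ≤ 5 * Real.sqrt (1 - nsq a) * Real.sqrt t := by
  have he' : nsq e = 1 := he
  have ha' : nsq a < 1 := ha
  have ht : 0 ≤ t := by
    have : normSq (ip a e) ≤ 1 := by linarith
    linarith
  have hA' : (nsq a : ℂ) ≠ 0 := by exact_mod_cast hA.ne'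
  set σ := Real.sqrt (1 - nsq a)
  have hσ0 : 0 ≤ σ := Real.sqrt_nonneg _
  have hσ2 : σ ^ 2 = 1 - nsq a := Real.sq_sqrt (by linarith)
  set τ := Real.sqrt t
  have hτ0 : 0 ≤ τ := Real.sqrt_nonneg _
  have hτ2 : τ ^ 2 = t := Real.sq_sqrt ht
  have hksum : normSq (conj (e 0) - conj (a 0) * (ip a e / (nsq a : ℂ)))
      + normSq (conj (e 1) - conj (a 1) * (ip a e / (nsq a : ℂ))) ≤ 49 / 10 * t := by
    have orth : ip a e - ip a e / (nsq a : ℂ) * (nsq a : ℂ) = 0 := by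
      rw [div_mul_cancel₀ _ hA', sub_self]
    have hge : normSq (ip a e) ≤ normSq (ip a e / (nsq a : ℂ)) * nsq a := by
      rw [map_div₀, normSq_ofReal, div_mul_eq_mul_div, le_div_iff₀ (mul_pos hA hA)]
      nlinarith [normSq_nonneg (ip a e), mul_nonneg (normSq_nonneg (ip a e)) hA.le]
    generalize ip a e / (nsq a : ℂ) = c at orth hge ⊢
    have hid : normSq (conj (e 0) - conj (a 0) * c) + normSq (conj (e 1) - conj (a 1) * c)
        = 1 - normSq c * nsq a := by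
      rw [← he']
      have e1 := congrArg Complex.re orth
      have e2 := congrArg Complex.im orth
      simp only [nsq, ip, normSq_apply, sub_re, sub_im, add_re, add_im, mul_re, mul_im, ofReal_re,
        ofReal_im, conj_re, conj_im, zero_re, zero_im] at e1 e2 ⊢
      linear_combination (-2 * c.re) * e1 - 2 * c.im * e2
    linarith
  have hkb : ‖conj (e i) - conj (a i) * (ip a e / (nsq a : ℂ))‖ ≤ 9 / 4 * τ := by
    have e0 := normSq_nonneg (conj (e 0) - conj (a 0) * (ip a e / (nsq a : ℂ)))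
    have e1 := normSq_nonneg (conj (e 1) - conj (a 1) * (ip a e / (nsq a : ℂ)))
    have : ‖conj (e i) - conj (a i) * (ip a e / (nsq a : ℂ))‖ ^ 2 ≤ 49 / 10 * t := by
      rw [← normSq_eq_norm_sq]
      fin_cases i <;> simp only [Fin.isValue, Fin.zero_eta, Fin.mk_one] <;> linarith
    nlinarith [norm_nonneg (conj (e i) - conj (a i) * (ip a e / (nsq a : ℂ)))]
  have hσb : σ ≤ 9 / 4 * τ := by nlinarith
  have hai : ‖a i‖ ^ 2 ≤ nsq a := by
    rw [← normSq_eq_norm_sq]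
    fin_cases i <;> simp [nsq] <;> exact normSq_nonneg _
  have hpb : ‖conj (a i) * (ip a e / (nsq a : ℂ))‖ ≤ 1 := by
    rw [norm_mul, norm_div, Complex.norm_conj, norm_real, Real.norm_eq_abs, abs_of_pos hA,
      mul_div_assoc', div_le_one hA]
    rw [normSq_eq_norm_sq] at hcs
    nlinarith [norm_nonneg (ip a e), norm_nonneg (a i), sq_nonneg (‖a i‖ - ‖ip a e‖)]
  refine (norm_add_le _ _).trans ?_
  rw [norm_mul _ (conj (a i) * _), norm_mul (_ : ℂ) (conj (e i) - _), norm_real, norm_real,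
    Real.norm_eq_abs, Real.norm_eq_abs,
    abs_of_nonneg (by linarith : (0 : ℝ) ≤ 1 - nsq a), abs_of_nonneg hσ0]
  nlinarith [mul_le_mul_of_nonneg_left hkb hσ0,
    mul_le_mul_of_nonneg_left hpb (by linarith : (0 : ℝ) ≤ 1 - nsq a),
    mul_le_mul_of_nonneg_left hσb hσ0, mul_nonneg hσ0 hτ0]

theorem ip_aut (ha : a ∈ ball2) (hA : 0 < nsq a) (hz : z ∈ ball2) (e : Fin 2 → ℂ) :
    ip (aut a z) e = ip a e - lin (coef a e) z / (1 - ip z a) := by
  have hA' : (nsq a : ℂ) ≠ 0 := by exact_mod_cast hA.ne'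
  have hw := one_sub_ip_ne ha hz
  rw [eq_sub_iff_add_eq, aut, ip_self_eq]
  set σ := Real.sqrt (1 - nsq a) with hσ
  set A : ℂ := (nsq a : ℂ) with hAdef
  set s0 := ip a e with hs0
  set w : ℂ := 1 - ip z a with hwdef
  have key : ip (a - (ip z a / A) • a - (σ : ℂ) • (z - (ip z a / A) • a)) e
      + ((1 - A) * (ip z a * (s0 / A)) + (σ : ℂ) * (ip z e - ip z a * (s0 / A))) = s0 * w := by
    simp only [hs0, hwdef, ip, Pi.sub_apply, Pi.smul_apply, smul_eq_mul]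
    field_simp
    ring
  have hl : lin (fun i => ((1 - nsq a : ℝ) : ℂ) * (conj (a i) * (s0 / A))
      + (σ : ℂ) * (conj (e i) - conj (a i) * (s0 / A))) z
      = (1 - A) * (ip z a * (s0 / A)) + (σ : ℂ) * (ip z e - ip z a * (s0 / A)) := by
    simp only [lin, ip, hAdef]
    push_cast
    ring
  have hsm : ∀ u : Fin 2 → ℂ, ip (w⁻¹ • u) e = ip u e / w := fun u => by
    simp only [ip, Pi.smul_apply, smul_eq_mul]; ring
  have hc : lin (coef a e) z
      = (1 - A) * (ip z a * (s0 / A)) + (σ : ℂ) * (ip z e - ip z a * (s0 / A)) := hl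
  rw [hsm, hc, ← add_div, key, mul_div_assoc, div_self hw, mul_one]

/-- A cell active at the origin in the new coordinate. -/
theorem cell_normal_form (h1 : 0 < ρ) (h2 : ρ ≤ 1 / 10) (ht : 0 < t) (ht1 : t ≤ 1 / 1000)
    (ha : a ∈ ball2) (he : e ∈ sph) (hrel : normSq (bc t (ip a e)) ≤ 3 * ρ ^ 2 / 4) :
    ∃ p : ℂ × ℂ × (Fin 2 → ℂ) × (Fin 2 → ℂ), ‖p‖ ≤ 20 ∧ normSq p.2.1 = (1 - nsq a) / t ∧
        ∀ z ∈ ball2, 1 + lin p.2.2.2 z ≠ 0 ∧ hfun t a e z = hh p z := by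
  obtain ⟨v0, v1, v2, v3, v4⟩ := av_facts ht ht1
  obtain ⟨hb, hd0lo, hδ, -, hcs⟩ := relevant_facts h1 h2 ht ht1 ha he hrel
  have ha' : nsq a < 1 := ha
  have hA : 0 < nsq a := by linarith
  have hℓb := norm_coef_le ha he hA hδ hcs
  have hdepth : 1 - nsq a ≤ 49 / 10 * t := by linarith
  set d0 : ℂ := 1 - (av t : ℂ) * ip a e with hd0
  have hd0n : d0 ≠ 0 := norm_pos_iff.1 (lt_of_lt_of_le ht hd0lo)
  set σ := Real.sqrt (1 - nsq a) with hσ
  have hσ0 : 0 < σ := Real.sqrt_pos.2 (by linarith)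
  have hσ2 : σ ^ 2 = 1 - nsq a := Real.sq_sqrt (by linarith)
  set τ := Real.sqrt t with hτ
  have hτ0 : 0 < τ := Real.sqrt_pos.2 ht
  have hτ2 : τ ^ 2 = t := Real.sq_sqrt ht.le
  have hσb : σ ≤ 9 / 4 * τ := by nlinarith
  set ε : ℂ := ((σ / τ : ℝ) : ℂ) with hε
  have hεn : ε ≠ 0 := by rw [hε]; exact_mod_cast (div_pos hσ0 hτ0).ne'
  set m : Fin 2 → ℂ := fun i => ((1 - av t ^ 2 : ℝ) : ℂ) * coef a e i / (d0 ^ 2 * ε) with hm
  set l : Fin 2 → ℂ := fun i => -conj (a i) + (av t : ℂ) * coef a e i / d0 with hl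
  refine ⟨(bc t (ip a e), ε, m, l), ?_, ?_, fun z hz => ?_⟩
  · have hm' : ∀ i, ‖m i‖ ≤ 20 := fun i => by
      rw [hm, norm_div, norm_mul, norm_mul, norm_pow, hε, norm_real, norm_real, Real.norm_eq_abs,
        Real.norm_eq_abs, abs_of_nonneg (by nlinarith : (0 : ℝ) ≤ 1 - av t ^ 2),
        abs_of_pos (div_pos hσ0 hτ0), div_le_iff₀ (by positivity)]
      have e2 : (1 - av t ^ 2) * ‖coef a e i‖ ≤ 4 * t * (5 * σ * τ) :=
        mul_le_mul v4 (hℓb i) (norm_nonneg _) (by positivity)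
      have e3 : t ^ 2 * (σ / τ) ≤ ‖d0‖ ^ 2 * (σ / τ) :=
        mul_le_mul_of_nonneg_right (pow_le_pow_left₀ ht.le hd0lo 2) (by positivity)
      have e4 : t ^ 2 * (σ / τ) = t * σ * τ := by
        rw [← hτ2]; field_simp
      linarith
    have hl' : ∀ i, ‖l i‖ ≤ 20 := fun i => by
      refine (norm_add_le _ _).trans ?_
      rw [norm_neg, Complex.norm_conj, norm_div, norm_mul, norm_real, Real.norm_eq_abs,
        abs_of_pos v0]
      have hai : ‖a i‖ ^ 2 ≤ nsq a := by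
        rw [← normSq_eq_norm_sq]
        fin_cases i <;> simp [nsq] <;> exact normSq_nonneg _
      have e0 : ‖a i‖ ≤ 1 := by nlinarith [norm_nonneg (a i)]
      have e1 : av t * ‖coef a e i‖ / ‖d0‖ ≤ 19 := by
        rw [div_le_iff₀ (norm_pos_iff.2 hd0n)]
        have := hℓb i
        nlinarith [norm_nonneg (coef a e i)]
      linarith
    have hε' : ‖ε‖ ≤ 20 := by
      rw [hε, norm_real, Real.norm_eq_abs, abs_of_pos (div_pos hσ0 hτ0), div_le_iff₀ hτ0]
      linarith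
    simp only [Prod.norm_def]
    refine max_le (hb.trans (by linarith)) (max_le hε' (max_le ?_ ?_))
    · exact (pi_norm_le_iff_of_nonneg (by norm_num)).2 hm'
    · exact (pi_norm_le_iff_of_nonneg (by norm_num)).2 hl'
  · show normSq ε = _
    rw [hε, normSq_ofReal, ← hσ2]
    field_simp
    rw [hτ2]
  · set w : ℂ := 1 - ip z a with hw
    have hwn : w ≠ 0 := one_sub_ip_ne ha hz
    set L := lin (coef a e) z with hL
    have hlinl : 1 + lin l z = w + (av t : ℂ) * L / d0 := by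
      simp only [hl, hw, hL, lin, ip]; ring
    have hlinm : lin m z = ((1 - av t ^ 2 : ℝ) : ℂ) * L / (d0 ^ 2 * ε) := by
      simp only [hm, hL, lin]; ring
    have hs : ip (aut a z) e = ip a e - L / w := ip_aut ha hA hz e
    have hden : 1 - (av t : ℂ) * ip (aut a z) e ≠ 0 :=
      one_sub_mul_ne ht ht1 (norm_ip_lt (aut_mem ha hz) he)
    have hprod : w * (1 - (av t : ℂ) * ip (aut a z) e) = d0 * (1 + lin l z) := by
      rw [hlinl, hs, mul_add d0, mul_div_cancel₀ _ hd0n]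
      field_simp
      rw [hd0]
      ring
    have hne : 1 + lin l z ≠ 0 := fun h => mul_ne_zero hwn hden (by rw [hprod, h, mul_zero])
    refine ⟨hne, ?_⟩
    have e1 : 1 - (av t : ℂ) * (ip a e - L / w) = d0 * (1 + lin l z) / w := by
      rw [eq_div_iff hwn, ← hs, ← hprod]; ring
    show bc t (ip (aut a z) e) = bc t (ip a e) + ε * (lin m z / (1 + lin l z))
    rw [hs, bc, e1, bc, ← hd0, hlinm]
    have hX : w * d0 + (av t : ℂ) * L ≠ 0 := by
      intro h
      refine hne ?_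
      rw [hlinl, add_div' _ _ _ hd0n, h, zero_div]
    rw [hlinl]
    push_cast
    field_simp
    rw [hd0]
    ring

end Vale.Agent.P250.Full.Geometry
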