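import Vale.Agent.P250.Full.Calc

/-!
The Levi form under holomorphic maps, and the automorphisms of the ball.
-/

namespace Vale.Agent.P250.Full.Geometry

open Complex Filter Calc
open scoped ComplexConjugate Topology ContDiff

variable {n : ℕ} {f : (Fin n → ℂ) → ℂ} {H : (Fin n → ℂ) → Fin n → ℂ} {p : Fin n → ℂ}

theorem clm_decomp (L : (Fin n → ℂ) →L[ℝ] ℂ) (u : Fin n → ℂ) :
    L u = ∑ d, ((u d).re * L (Pi.single d 1) + (u d).im * L (Pi.single d I)) := by
  have hu : u = ∑ d, ((u d).re • (Pi.single d 1 : Fin n → ℂ)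
      + (u d).im • (Pi.single d I : Fin n → ℂ)) := by
    funext j
    simp [Finset.sum_apply, Pi.single_apply, Finset.sum_add_distrib]
  conv_lhs => rw [hu]
  simp [map_sum, real_smul]

theorem fderiv_comp_hol (hH : DifferentiableAt ℂ H p) (hf : DifferentiableAt ℝ f (H p))
    (v : Fin n → ℂ) :
    fderiv ℝ (fun q => f (H q)) p v = fderiv ℝ f (H p) (fderiv ℂ H p v) := by
  have h : HasFDerivAt (fun q => f (H q))
      ((fderiv ℝ f (H p)).comp ((fderiv ℂ H p).restrictScalars ℝ)) p :=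
    hf.hasFDerivAt.comp p (hH.hasFDerivAt.restrictScalars ℝ)
  rw [h.fderiv]
  rfl

theorem wd_comp_hol (hH : DifferentiableAt ℂ H p) (hf : DifferentiableAt ℝ f (H p)) (i : Fin n) :
    wd i (fun q => f (H q)) p
      = ∑ d, wd d f (H p) * fderiv ℂ H p (Pi.single i 1) d := by
  simp only [wd, fderiv_comp_hol hH hf, single_I i, map_smul]
  rw [clm_decomp (fderiv ℝ f (H p)) (I • _), clm_decomp (fderiv ℝ f (H p)) (fderiv ℂ H p _),
    Finset.mul_sum, ← Finset.sum_sub_distrib, Finset.sum_div]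
  refine Finset.sum_congr rfl fun d _ => ?_
  generalize fderiv ℂ H p (Pi.single i 1) = u
  simp only [Pi.smul_apply, smul_eq_mul, mul_re, mul_im, I_re, I_im, zero_mul, one_mul,
    zero_sub, zero_add]
  conv_rhs => rw [← re_add_im (u d)]
  push_cast
  linear_combination ((u d).im * fderiv ℝ f (H p) (Pi.single d I) / 2) * I_sq

theorem wdb_comp_hol (hH : DifferentiableAt ℂ H p) (hf : DifferentiableAt ℝ f (H p)) (i : Fin n) :
    wdb i (fun q => f (H q)) p
      = ∑ d, wdb d f (H p) * conj (fderiv ℂ H p (Pi.single i 1) d) := by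
  simp only [wdb, fderiv_comp_hol hH hf, single_I i, map_smul]
  rw [clm_decomp (fderiv ℝ f (H p)) (I • _), clm_decomp (fderiv ℝ f (H p)) (fderiv ℂ H p _),
    Finset.mul_sum, ← Finset.sum_add_distrib, Finset.sum_div]
  refine Finset.sum_congr rfl fun d _ => ?_
  generalize fderiv ℂ H p (Pi.single i 1) = u
  simp only [Pi.smul_apply, smul_eq_mul, mul_re, mul_im, I_re, I_im, zero_mul, one_mul,
    zero_sub, zero_add]
  conv_rhs => rw [← re_add_im (u d)]
  simp only [map_add, map_mul, conj_ofReal, conj_I]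
  push_cast
  linear_combination ((u d).im * fderiv ℝ f (H p) (Pi.single d I) / 2) * I_sq

variable {W : (Fin 2 → ℂ) → ℝ} {z : Fin 2 → ℂ} {H : (Fin 2 → ℂ) → Fin 2 → ℂ}
  {U : Set (Fin 2 → ℂ)}

/-- The Levi form of a composition with a holomorphic map. -/
theorem lev_chain (hU : IsOpen U) (hH : DifferentiableOn ℂ H U) (hz : z ∈ U)
    (hW : ContDiffAt ℝ 2 W (H z)) (a b : Fin 2) :
    lev (fun q => W (H q)) a b z = ∑ c, (∑ d, lev W d c (H z)
      * fderiv ℂ H z (Pi.single a 1) d) * conj (fderiv ℂ H z (Pi.single b 1) c) := by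
  have hev : ∀ᶠ q in 𝓝 z, DifferentiableAt ℂ H q :=
    eventually_of_mem (hU.mem_nhds hz) fun q hq => hH.differentiableAt (hU.mem_nhds hq)
  have hdH : DifferentiableAt ℂ H z := hev.self_of_nhds
  have hWev : ∀ᶠ q in 𝓝 z, DifferentiableAt ℝ W (H q) :=
    (hdH.continuousAt.eventually (eventually_differentiableAt hW))
  have hd : ∀ v c, DifferentiableAt ℂ (fun q => fderiv ℂ H q v c) z := by
    intro v c
    have hc : DifferentiableOn ℂ (fun q => H q c) U := (differentiableOn_pi.1 hH) c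
    refine ((P274.Full.PatchAux.differentiableOn_fderiv_apply hU hc v).differentiableAt
      (hU.mem_nhds hz)).congr_of_eventuallyEq ?_
    filter_upwards [hev] with q hq
    rw [(hasFDerivAt_pi'.1 hq.hasFDerivAt c).fderiv]
    rfl
  have h1 : (fun q => wdb b (fun q' => (W (H q') : ℂ)) q) =ᶠ[𝓝 z] fun q =>
      ∑ c, wdb c (fun y => (W y : ℂ)) (H q) * conj (fderiv ℂ H q (Pi.single b 1) c) := by
    filter_upwards [hev, hWev] with q hq hWq
    exact wdb_comp_hol (f := fun y => (W y : ℂ)) hq (differentiableAt_ofReal hWq) b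
  have hdW : ∀ c, DifferentiableAt ℝ (wdb c fun y => (W y : ℂ)) (H z) :=
    fun c => differentiableAt_wdb (contDiffAt_ofReal hW) c
  have hdc : ∀ c, DifferentiableAt ℝ
      (fun q => conj (fderiv ℂ H q (Pi.single b 1) c)) z :=
    fun c => differentiableAt_conj ((hd _ c).restrictScalars ℝ)
  have hp : ∀ c, DifferentiableAt ℝ (fun q => wdb c (fun y => (W y : ℂ)) (H q)) z :=
    fun c => (hdW c).comp z (hdH.restrictScalars ℝ)
  unfold lev
  rw [wd_congr h1]
  simp only [Fin.sum_univ_two]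
  rw [wd_add ((hp 0).fun_mul (hdc 0)) ((hp 1).fun_mul (hdc 1)), wd_mul (hp 0) (hdc 0),
    wd_mul (hp 1) (hdc 1), wd_conj ((hd _ 0).restrictScalars ℝ), wd_conj ((hd _ 1).restrictScalars ℝ),
    wdb_hol (hd _ 0), wdb_hol (hd _ 1), wd_comp_hol hdH (hdW 0), wd_comp_hol hdH (hdW 1)]
  simp

theorem levQ_chain (hU : IsOpen U) (hH : DifferentiableOn ℂ H U) (hz : z ∈ U)
    (hW : ContDiffAt ℝ 2 W (H z)) (v : Fin 2 → ℂ) :
    levQ (fun q => W (H q)) z v = levQ W (H z)
      (v 0 • fderiv ℂ H z (Pi.single 0 1) + v 1 • fderiv ℂ H z (Pi.single 1 1)) := by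
  simp only [levQ, lev_chain hU hH hz hW, Fin.sum_univ_two, Pi.add_apply, Pi.smul_apply,
    smul_eq_mul, map_add, map_mul]
  congr 1
  ring

/-! ### Automorphisms -/

variable {a e : Fin 2 → ℂ}

theorem normSq_ip_le (x y : Fin 2 → ℂ) : normSq (ip x y) ≤ nsq x * nsq y := by
  have h : nsq x * nsq y - normSq (ip x y) = normSq (x 0 * y 1 - x 1 * y 0) := by
    simp [nsq, ip, normSq_apply]; ring
  linarith [normSq_nonneg (x 0 * y 1 - x 1 * y 0)]

theorem nsq_nonneg (x : Fin 2 → ℂ) : 0 ≤ nsq x := add_nonneg (normSq_nonneg _) (normSq_nonneg _)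

theorem isOpen_ball2 : IsOpen ball2 := by
  refine isOpen_lt ?_ continuous_const
  unfold nsq; fun_prop

theorem zero_mem_ball2 : (0 : Fin 2 → ℂ) ∈ ball2 := by simp [ball2, nsq]

theorem one_sub_ip_ne (ha : a ∈ ball2) (hz : z ∈ ball2) : 1 - ip z a ≠ 0 := by
  intro h
  have h1 : normSq (ip z a) ≤ nsq z * nsq a := normSq_ip_le z a
  rw [← sub_eq_zero.1 h, map_one] at h1
  have ha' : nsq a < 1 := ha
  have hz' : nsq z < 1 := hz
  nlinarith [nsq_nonneg z, nsq_nonneg a]

theorem contDiff_normSq {k : WithTop ℕ∞} : ContDiff ℝ k fun z : ℂ => normSq z := by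
  simp only [normSq_eq_norm_sq]
  exact contDiff_norm_sq ℝ

theorem contDiff_nsq {k : WithTop ℕ∞} : ContDiff ℝ k nsq := by
  unfold nsq
  exact (contDiff_normSq.comp (contDiff_apply ℝ ℂ 0)).add
    (contDiff_normSq.comp (contDiff_apply ℝ ℂ 1))

theorem ip_self_eq (a : Fin 2 → ℂ) : ip a a = (nsq a : ℂ) := by
  simp [ip, nsq, mul_conj]

theorem one_sub_nsq_aut (ha : a ∈ ball2) (hz : z ∈ ball2) :
    1 - nsq (aut a z) = (1 - nsq a) * (1 - nsq z) / normSq (1 - ip z a) := by
  have hw : 0 < normSq (1 - ip z a) := normSq_pos.2 (one_sub_ip_ne ha hz)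
  rw [eq_div_iff hw.ne']
  by_cases h0 : a = 0
  · subst h0
    simp [aut, nsq, ip]
  have hA : 0 < nsq a := by
    refine lt_of_le_of_ne (nsq_nonneg a) fun h => h0 ?_
    have e0 := normSq_nonneg (a 0)
    have e1 := normSq_nonneg (a 1)
    have h' : normSq (a 0) + normSq (a 1) = 0 := h.symm
    funext i
    fin_cases i
    · exact normSq_eq_zero.1 (by linarith : normSq (a 0) = 0)
    · exact normSq_eq_zero.1 (by linarith : normSq (a 1) = 0)
  set c : ℂ := ip z a / (nsq a : ℂ) with hc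
  have hp : ip z a = c * (nsq a : ℂ) := by
    rw [hc, div_mul_cancel₀]; exact_mod_cast hA.ne'
  set σ := Real.sqrt (1 - nsq a) with hσ
  have hσ2 : σ ^ 2 = 1 - nsq a := Real.sq_sqrt (by linarith [show nsq a < 1 from ha])
  have haut : aut a z = (1 - ip z a)⁻¹ • (a - c • a - (σ : ℂ) • (z - c • a)) := by
    rw [aut, ip_self_eq, ← hc, ← hσ]
  have hn : nsq (aut a z) * normSq (1 - ip z a) = nsq (a - c • a - (σ : ℂ) • (z - c • a)) := by
    rw [haut]
    simp only [nsq, Pi.smul_apply, smul_eq_mul, map_mul, map_inv₀]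
    field_simp
  have orth : ip z a - c * (nsq a : ℂ) = 0 := by rw [hp, sub_self]
  have key : nsq (a - c • a - (σ : ℂ) • (z - c • a))
      = normSq (1 - c) * nsq a + σ ^ 2 * (nsq z - normSq c * nsq a) := by
    have e1 := congrArg Complex.re orth
    have e2 := congrArg Complex.im orth
    simp only [nsq, ip, Pi.sub_apply, Pi.smul_apply, smul_eq_mul, normSq_apply, sub_re, sub_im,
      mul_re, mul_im, ofReal_re, ofReal_im, conj_re, conj_im, add_re, add_im, one_re, one_im,
      zero_re, zero_im] at e1 e2 ⊢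
    linear_combination (-(2 * σ) * (1 - c.re) - 2 * σ ^ 2 * c.re) * e1
      + (2 * σ * c.im - 2 * σ ^ 2 * c.im) * e2
  rw [sub_mul, hn, key, hσ2, hp]
  simp only [normSq_apply, sub_re, sub_im, mul_re, mul_im, one_re, one_im, ofReal_re, ofReal_im]
  ring

theorem aut_mem (ha : a ∈ ball2) (hz : z ∈ ball2) : aut a z ∈ ball2 := by
  have h := one_sub_nsq_aut ha hz
  have h1 : 0 < (1 - nsq a) * (1 - nsq z) / normSq (1 - ip z a) :=
    div_pos (mul_pos (sub_pos.2 ha) (sub_pos.2 hz)) (normSq_pos.2 (one_sub_ip_ne ha hz))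
  show nsq (aut a z) < 1
  linarith

theorem aut_zero : aut a 0 = a := by
  simp [aut, ip]

theorem differentiableOn_aut (ha : a ∈ ball2) : DifferentiableOn ℂ (aut a) ball2 := by
  intro z hz
  refine DifferentiableAt.differentiableWithinAt ?_
  have hip : DifferentiableAt ℂ (fun z => ip z a) z := by unfold ip; fun_prop
  unfold aut
  fun_prop (disch := exact one_sub_ip_ne ha hz)

/-- The Levi form of `lb` in the coordinates of an automorphism. -/
theorem lev_lb_aut (ha : a ∈ ball2) (hz : z ∈ ball2) (i j : Fin 2) :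
    lev (fun q => lb (aut a q)) i j z = omb i j z := by
  set P : ℝ → ℝ := fun x => Real.log x with hP
  have hd : DifferentiableOn ℂ (fun q => 1 - ip q a) ball2 := by
    unfold ip; fun_prop
  have hpos : ∀ q ∈ ball2, 0 < normSq (1 - ip q a) := fun q hq =>
    normSq_pos.2 (one_sub_ip_ne ha hq)
  have heq : (fun q => lb (aut a q)) =ᶠ[𝓝 z]
      fun q => (lb q + P (normSq (1 - ip q a))) + -Real.log (1 - nsq a) := by
    filter_upwards [isOpen_ball2.mem_nhds hz] with q hq
    have h1 : (0 : ℝ) < 1 - nsq a := sub_pos.2 ha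
    have h2 : (0 : ℝ) < 1 - nsq q := sub_pos.2 hq
    simp only [lb, hP, one_sub_nsq_aut ha hq]
    rw [Real.log_div (mul_pos h1 h2).ne' (hpos q hq).ne', Real.log_mul h1.ne' h2.ne']
    ring
  have c1 : ContDiffAt ℝ 2 lb z := by
    have : ContDiffAt ℝ 2 (fun q => 1 - nsq q) z := contDiffAt_const.sub contDiff_nsq.contDiffAt
    exact (this.log (sub_ne_zero.2 (show nsq z < 1 from hz).ne')).neg
  have c2 : ContDiffAt ℝ 2 (fun q => P (normSq (1 - ip q a))) z := by
    have : ContDiffAt ℝ 2 (fun q => normSq (1 - ip q a)) z := by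
      refine contDiff_normSq.contDiffAt.comp z ?_
      unfold ip; fun_prop
    exact this.log (hpos z hz).ne'
  rw [lev_congr heq, lev_add (c1.add c2) contDiffAt_const, lev_add c1 c2, lev_const, lev_lb hz,
    lev_radial isOpen_ball2 hd hz (P := P) (P' := fun x => x⁻¹)
      (P'' := -(normSq (1 - ip z a) ^ 2)⁻¹)
      ((eventually_gt_nhds (hpos z hz)).mono fun x hx => Real.hasDerivAt_log hx.ne')
      (hasDerivAt_inv (hpos z hz).ne')]
  have hzero : (normSq (1 - ip z a))⁻¹ + normSq (1 - ip z a) * -(normSq (1 - ip z a) ^ 2)⁻¹ = 0 := by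
    field_simp [(hpos z hz).ne']
    ring
  rw [hzero]
  simp

end Vale.Agent.P250.Full.Geometry
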